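import Crest.Agent.R65.CADefs
import Crest.Agent.R65.KL.Defs

/-! Row 65, key lemma, weights: definitions.  Upstairs the coordinates are `z = X ∘ inl`,
`β = X ∘ inr`, with `b_j = β_j ^ N + c_j` and `a = z - S b`. -/

set_option autoImplicit false

namespace Crest.Agent.R65.KB

open MvPolynomial Crest.Agent.R65.Mn Crest.Agent.R65.CA

variable {d : ℕ}

/-- the polynomial ring upstairs -/
abbrev AA (d : ℕ) : Type := MvPolynomial (Ix d) (LL d)

/-- `z_i` -/
noncomputable def zP (d : ℕ) (i : Fin d) : AA d := X (Sum.inl i)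

/-- `b_j = β_j ^ N + c_j` -/
noncomputable def bP (N : ℕ) (c : Fin d → ℂ) (j : Fin d) : AA d :=
  X (Sum.inr j) ^ N + C (algebraMap ℂ (LL d) (c j))

/-- `(a, b)` with `a = z - S b` -/
noncomputable def xP (N : ℕ) (c : Fin d → ℂ) : Ix d → AA d :=
  Sum.elim (fun i => X (Sum.inl i) - ∑ j, C (SS d i j) * bP N c j) (bP N c)

/-- the functions `β ^ g φ (a, b)` -/
noncomputable def WW (N : ℕ) (c : Fin d → ℂ) (s : ℕ) : Submodule (LL d) (AA d) :=
  Submodule.span (LL d) {ψ | ∃ g : Fin d → ℕ, (∀ j, g j < N) ∧ ∃ φ : AA d, φ.totalDegree ≤ s ∧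
    ψ = (∏ j, X (Sum.inr j) ^ g j) * aeval (xP N c) φ}

/-- the points upstairs -/
def YY (N : ℕ) (c : Fin d → ℂ) (Y : Finset (Pt d)) : Set (Ix d → LL d) :=
  {y' | ∃ y ∈ Y, ∃ β : Fin d → ℂ, (∀ j, β j ^ N + c j = y (Sum.inr j)) ∧
    y' = Sum.elim (pz y) fun j => algebraMap ℂ (LL d) (β j)}

/-- `p` is stable under derivations `∂ / ∂ S_ij` which kill `a`, `b` and `ℂ` -/
def Stb (N : ℕ) (c : Fin d → ℂ) (p : Ideal (AA d)) : Prop :=
  ∀ i j : Fin d, ∃ D : AA d →+ AA d, (∀ f g, D (f * g) = f * D g + g * D f) ∧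
    (∀ k, D (xP N c k) = 0) ∧ (∀ a : ℂ, D (C (algebraMap ℂ (LL d) a)) = 0) ∧
    (∀ k l, D (C (SS d k l)) = C (KL.Eu (LL d) i j k l)) ∧ ∀ f ∈ p, D f ∈ p

theorem eval_xP {N : ℕ} {c : Fin d → ℂ} {y : Pt d} {β : Fin d → ℂ}
    (h : ∀ j, β j ^ N + c j = y (Sum.inr j)) (k : Ix d) :
    eval (Sum.elim (pz y) fun j => algebraMap ℂ (LL d) (β j)) (xP N c k) = up y k := by
  have hb : ∀ j, eval (Sum.elim (pz y) fun j => algebraMap ℂ (LL d) (β j)) (bP N c j) =
      up y (Sum.inr j) := by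
    intro j
    simp only [bP, map_add, map_pow, eval_X, eval_C, Sum.elim_inr, up, ← h j]
  rcases k with i | j
  · simp only [xP, Sum.elim_inl, map_sub, map_sum, map_mul, eval_X, eval_C, hb]
    simp only [pz, prj]
    ring
  · exact hb j

theorem prj_xP {Ω : Type} [Field Ω] [Algebra (LL d) Ω] (N : ℕ) (c : Fin d → ℂ) (ξ : Ix d → Ω)
    (i : Fin d) :
    prj (fun i j => algebraMap (LL d) Ω (SS d i j)) (fun k => aeval ξ (xP N c k)) i =
      ξ (Sum.inl i) := by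
  simp only [prj, xP, Sum.elim_inl, Sum.elim_inr, map_sub, map_sum, map_mul, aeval_X, aeval_C]
  ring

end Crest.Agent.R65.KB
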