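import Crest.Agent.R65.KB.Defs
import Crest.Agent.R65.KL.Gen
import Crest.Agent.R65.CARed

/-! Row 65, key lemma, weights: rich primes are stable under the derivations. -/

set_option autoImplicit false

namespace Crest.Agent.R65.KB

open MvPolynomial Crest.Agent.R65.Mn Crest.Agent.R65.CA

/-- derivations of a polynomial ring with prescribed values: `D f = f^δ + ∑ ∂_k f * v k` -/
theorem exists_D {σ L : Type} [Fintype σ] [Field L] (δ : L →+ L)
    (hδ : ∀ a b, δ (a * b) = a * δ b + b * δ a) (v : σ → MvPolynomial σ L) {N : ℕ}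
    (hv : ∀ k, (v k).totalDegree ≤ N) :
    ∃ D : MvPolynomial σ L →+ MvPolynomial σ L, (∀ f g, D (f * g) = f * D g + g * D f) ∧
      (∀ a, D (C a) = C (δ a)) ∧ (∀ k, D (X k) = v k) ∧
      (∀ f, (D f).totalDegree ≤ f.totalDegree + N) ∧
      ∀ y : σ → L, (∀ k, eval y (v k) = δ (y k)) → ∀ f, eval y (D f) = δ (eval y f) := by
  classical
  have h1 : δ 1 = 0 := by
    have := hδ 1 1
    simp only [mul_one, one_mul] at this
    exact left_eq_add.1 this
  let φ : L →+* DualNumber (MvPolynomial σ L) :=
    { toFun := fun a => TrivSqZeroExt.inl (C a) + TrivSqZeroExt.inr (C (δ a))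
      map_one' := by ext1 <;> simp [h1]
      map_mul' := fun a b => by ext1 <;> simp [hδ, mul_comm]
      map_zero' := by ext1 <;> simp
      map_add' := fun a b => by ext1 <;> simp }
  let Φ : MvPolynomial σ L →+* DualNumber (MvPolynomial σ L) :=
    eval₂Hom φ fun k => TrivSqZeroExt.inl (X k) + TrivSqZeroExt.inr (v k)
  have hfst : ∀ f, (Φ f).fst = f := by
    intro f
    induction f using MvPolynomial.induction_on with
    | C a => simp [Φ, φ]
    | add f g hf hg => rw [map_add, TrivSqZeroExt.fst_add, hf, hg]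
    | mul_X f k hf => rw [map_mul, TrivSqZeroExt.fst_mul, hf]; simp [Φ]
  let D : MvPolynomial σ L →+ MvPolynomial σ L :=
    { toFun := fun f => (Φ f).snd
      map_zero' := by simp
      map_add' := fun f g => by simp }
  have hmul : ∀ f g, D (f * g) = f * D g + g * D f := by
    intro f g
    change (Φ (f * g)).snd = f * (Φ g).snd + g * (Φ f).snd
    rw [map_mul, DualNumber.snd_mul, hfst, hfst, mul_comm (Φ f).snd]
  have hC : ∀ a, D (C a) = C (δ a) := fun a => by
    change (Φ (C a)).snd = _
    simp [Φ, φ]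
  have hX : ∀ k, D (X k) = v k := fun k => by
    change (Φ (X k)).snd = _
    simp [Φ]
  have hmon : ∀ (a : L) (n : ℕ) (α : σ →₀ ℕ), α.degree = n →
      (D (monomial α a)).totalDegree ≤ n + N := by
    intro a n
    induction n with
    | zero =>
      intro α hα
      rw [(Finsupp.degree_eq_zero_iff α).1 hα, ← C_apply, hC, totalDegree_C]
      exact Nat.zero_le _
    | succ n ih =>
      intro α hα
      have hne : α ≠ 0 := by
        rintro rfl
        simp at hα
      obtain ⟨k, hk⟩ := Finsupp.ne_iff.1 hne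
      obtain ⟨β, rfl⟩ : ∃ β, α = β + Finsupp.single k 1 :=
        ⟨α - Finsupp.single k 1, (tsub_add_cancel_of_le (Finsupp.single_le_iff.2
          (Nat.one_le_iff_ne_zero.2 hk))).symm⟩
      have hβ : β.degree = n := by simpa using hα
      have hm : (monomial β a : MvPolynomial σ L).totalDegree ≤ n :=
        (totalDegree_monomial_le β a).trans (le_of_eq hβ)
      rw [monomial_add_single, pow_one, hmul, hX]
      refine (totalDegree_add _ _).trans (max_le ((totalDegree_mul _ _).trans ?_)
        ((totalDegree_mul _ _).trans ?_))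
      · have := hv k
        omega
      · have := ih β hβ
        rw [totalDegree_X]
        omega
  refine ⟨D, hmul, hC, hX, fun f => ?_, fun y hy f => ?_⟩
  · conv_lhs => rw [f.as_sum, map_sum]
    refine totalDegree_finsetSum_le fun α hα => (hmon _ _ α rfl).trans ?_
    exact Nat.add_le_add_right (le_totalDegree hα) N
  · induction f using MvPolynomial.induction_on with
    | C a => rw [hC, eval_C, eval_C]
    | add f g hf hg => simp only [map_add, hf, hg]
    | mul_X f k hf => rw [hmul, hX, map_add, map_mul, map_mul, map_mul, hδ, hf, hy, eval_X]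

/-- `δ = D i j` on `LL d` (`KL.exists_gen_LL`), `D` from `exists_D` with `D β = 0`,
`D z_k = ∑ C (δ S_kl) b_l`; for `f ∈ p` of degree `≤ C t` the polynomial `D f` has degree
`≤ (C + 1) t` and vanishes on the points, so lies in `p`; then `red`. -/
theorem stb_of_rich (d : ℕ) : ∃ c₀ : ℕ, 1 ≤ c₀ ∧ ∀ (N : ℕ) (c : Fin d → ℂ) (Y : Finset (Pt d))
    (p : Ideal (AA d)) (t : ℕ), 1 ≤ N → N ≤ t → Adm p t → Rich (YY N c Y) p (c₀ * t) →
      Stb N c p := by
  obtain ⟨C₀, hC₀, hred⟩ := red (Ix d)
  obtain ⟨δ, hδ⟩ := KL.exists_gen_LL (d := d)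
  refine ⟨C₀ + 1, by omega, fun N c Y p t hN ht hp hr i j => ?_⟩
  have hL : ∀ a b, δ i j (a * b) = a * δ i j b + b * δ i j a := fun a b => by
    rw [Derivation.leibniz, smul_eq_mul, smul_eq_mul]
  have hb : ∀ l, (bP N c l).totalDegree ≤ N := fun l =>
    (totalDegree_add _ _).trans (max_le (totalDegree_X_pow _ _).le (by simp))
  obtain ⟨D, h1, h2, h3, h4, h5⟩ := exists_D (σ := Ix d) (δ i j).toLinearMap.toAddMonoidHom hL
    (Sum.elim (fun k => ∑ l, C (δ i j (SS d k l)) * bP N c l) fun _ => 0) (N := N) (by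
      rintro (k | k)
      · refine totalDegree_finsetSum_le fun l _ => (totalDegree_mul _ _).trans ?_
        rw [totalDegree_C, zero_add]
        exact hb l
      · simp)
  have hc : ∀ a : ℂ, D (C (algebraMap ℂ (LL d) a)) = 0 := fun a => by
    rw [h2]
    simp
  have hpow : ∀ l n, D (X (Sum.inr l) ^ n) = 0 := by
    intro l n
    induction n with
    | zero => simpa using hc 1
    | succ n ih => rw [pow_succ, h1, ih, h3]; simp
  have hDb : ∀ l, D (bP N c l) = 0 := fun l => by rw [bP, map_add, hpow, hc, add_zero]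
  refine ⟨D, h1, ?_, hc, fun k l => by rw [h2, ← hδ.der]; rfl, ?_⟩
  · rintro (k | k)
    · simp only [xP, Sum.elim_inl, map_sub, map_sum, h1, hDb, h2, h3, mul_zero, zero_add]
      rw [sub_eq_zero]
      exact Finset.sum_congr rfl fun l _ => mul_comm _ _
    · exact hDb k
  · refine hred (LL d) p t (hN.trans ht) hp D h1 fun f hf hdeg => hr _ ((h4 f).trans ?_) ?_
    · nlinarith
    · rintro _ ⟨⟨y, hy, β, hβ, rfl⟩, hyp⟩
      rw [h5 _ ?_ f, hyp f hf, map_zero]
      rintro (k | k)
      · have hbl : ∀ l, eval (Sum.elim (pz y) fun j => algebraMap ℂ (LL d) (β j)) (bP N c l) =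
            up y (Sum.inr l) := fun l => eval_xP hβ (Sum.inr l)
        simp only [Sum.elim_inl, map_sum, map_mul, eval_C, hbl]
        change _ = δ i j (pz y k)
        simp only [pz, prj, up, map_add, map_sum, hL, Derivation.map_algebraMap, mul_zero,
          zero_add]
        exact Finset.sum_congr rfl fun l _ => mul_comm _ _
      · simp

end Crest.Agent.R65.KB
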