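import Crest.Agent.R65.KB.Rank
import Crest.Agent.R65.KB.Stab
import Crest.Agent.R65.KL.Exc
import Crest.Agent.R65.CARV
import Crest.Agent.R65.CACov
import Crest.Agent.R65.CAExt

/-! Row 65, key lemma, weights: assembly. -/

set_option autoImplicit false

namespace Crest.Agent.R65.KB

open MvPolynomial Crest.Agent.R65.Mn Crest.Agent.R65.CA

variable {d : ℕ}

theorem eval_rename_YY {N : ℕ} {c : Fin d → ℂ} {Y : Finset (Pt d)} {y' : Ix d → LL d}
    (h : y' ∈ YY N c Y) : ∃ y ∈ Y, (fun j => y' (Sum.inl j)) = pz y ∧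
      ∀ k, eval y' (xP N c k) = up y k := by
  obtain ⟨y, hy, β, hβ, rfl⟩ := h
  exact ⟨y, hy, rfl, eval_xP hβ⟩

/-- on a stable prime through a point off the exceptional flats `b` has linear growth -/
theorem grow_b {N : ℕ} {c : Fin d → ℂ} {Y : Finset (Pt d)} {p : Ideal (AA d)} (hst : Stb N c p)
    {F : MvPolynomial (Fin d) (LL d)} (hF : F ≠ 0) (hFp : rename Sum.inl F ∈ p)
    (hY : ∀ y ∈ Y, ∀ Φ ∈ Exc F, y ∉ Φ) (hne : (ZV (YY N c Y) p).Nonempty) (j : Fin d) :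
    Grow p (zP d) 1 (bP N c j) := by
  intro Ω _ _ ξ hξ O hO γ hγ hz
  let _ : Algebra ℂ Ω := ((algebraMap (LL d) Ω).comp (algebraMap ℂ (LL d))).toAlgebra
  have _ : IsScalarTower ℂ (LL d) Ω := IsScalarTower.of_algebraMap_eq fun _ => rfl
  have hprj : prj (KL.So d Ω) (fun k => aeval ξ (xP N c k)) = fun i => ξ (Sum.inl i) :=
    funext fun i => prj_xP N c ξ i
  have hFz : aeval (prj (KL.So d Ω) (fun k => aeval ξ (xP N c k))) F = 0 := by
    rw [hprj]
    have := mem_kerAt.1 (hξ ▸ hFp : rename Sum.inl F ∈ kerAt (LL d) ξ)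
    rwa [aeval_rename] at this
  rcases KL.rich_case (fun k => aeval ξ (xP N c k)) F hF hFz (fun i j => by
      obtain ⟨D, h1, h2, h3, h4, h5⟩ := hst i j
      obtain ⟨D', hD'⟩ := KL.der_of_ker ((aeval ξ : AA d →ₐ[LL d] Ω).restrictScalars ℂ) D h1 h3
        (fun a ha => mem_kerAt.1 (hξ ▸ h5 a (hξ ▸ mem_kerAt.2 ha)))
      refine ⟨D', fun k l => ?_, fun k => ?_⟩
      · have := hD' (C (SS d k l))
        rw [h4] at this
        simp only [AlgHom.restrictScalars_apply, aeval_C] at this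
        refine this.trans ?_
        simp only [KL.Eu, map_sub]
        split_ifs <;> simp
      · have := hD' (xP N c k)
        rw [h2, map_zero] at this
        exact this) with ⟨Φ, hΦ, hmem⟩ | hlin
  · exfalso
    obtain ⟨y', hy', hy'p⟩ := hne
    obtain ⟨y, hy, -, hxy⟩ := eval_rename_YY hy'
    refine hY y hy Φ hΦ (hmem y fun w a hw => ?_)
    have h1 : ∑ k, C (algebraMap ℂ (LL d) (w k)) * xP N c k - C (algebraMap ℂ (LL d) a) ∈ p := by
      rw [← hξ, mem_kerAt]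
      simp only [map_sub, map_sum, map_mul, aeval_C]
      exact sub_eq_zero.2 hw
    have h2 := hy'p _ h1
    simp only [map_sub, map_sum, map_mul, eval_C, hxy, up] at h2
    apply (algebraMap ℂ (LL d)).injective
    simp only [map_sum, map_mul]
    exact sub_eq_zero.1 h2
  · rw [pow_one]
    exact hlin O hO γ hγ (fun i => by rw [hprj]; simpa [zP] using hz i) (Sum.inr j)

theorem klStmt (d : ℕ) : KLStmt d := by
  classical
  obtain ⟨c₀, hc₀, hstab⟩ := stb_of_rich d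
  obtain ⟨C₁, hrv⟩ := rv_grow (Ix d) c₀ (d + 1)
  obtain ⟨C₂, hC₂, hcov⟩ := rank_cover (Fin d) (d + 1 + 2 * Fintype.card (Ix d) + 1)
  generalize d + 1 + 2 * Fintype.card (Ix d) + 1 = κ at hrv hcov
  refine ⟨C₁ * (κ + 1) ^ d * C₂, C₂, hC₂, fun F t s Y hF ht hts hY hoff => ?_⟩
  have hdeg : F.totalDegree + 1 ≤ t := le_trans (Nat.le_mul_of_pos_left _ hC₂) ht
  have hs : 1 ≤ s := by omega
  obtain ⟨c, hc⟩ := exists_shift Y
  obtain ⟨P, hP, hcover, hbud⟩ := hcov (LL d) (⨅ y ∈ pz '' (Y : Set (Pt d)), mI y) F t s (by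
    simp only [Submodule.mem_iInf]
    rintro _ ⟨y, hy, rfl⟩
    exact mem_mI.2 (hY y hy)) hF ht hts
  rw [Hf_vanishing, ← frk_eq_rk, Fintype.card_fin] at hbud
  have := WW_finite s c s
  have h1 := hrv (LL d) (YY s c Y) (WW s c s) s (Fin d) (zP d) hs
    (fun i => (totalDegree_X _).le) (fun p t' ht' hp hr hne => by
      have hFp : rename Sum.inl F ∈ p := by
        refine hr _ ((totalDegree_rename_le _ _).trans ?_) fun y' hy' => ?_
        · calc F.totalDegree ≤ 1 * t' := by omega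
            _ ≤ c₀ * t' := Nat.mul_le_mul_right _ hc₀
        · obtain ⟨y, hy, h, -⟩ := eval_rename_YY hy'.1
          rw [eval_rename, show y' ∘ Sum.inl = pz y from h]
          exact hY y hy
      obtain ⟨g1, g2⟩ := grow_WW hs (grow_b (hstab s c Y p t' hs ht' hp hr) hF hFp hoff hne) s
      refine ⟨g1, fun φ hφ => (g2 φ hφ).mono ?_⟩
      have : d * 1 ≤ d * t' := Nat.mul_le_mul_left _ (hs.trans ht')
      nlinarith)
  have h2 : rk (WW s c s) (YY s c Y) ≤ ∑ p ∈ P, rk (WW s c s) (ZV (YY s c Y) (ext (Fin d) p)) := by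
    refine sub_cover (rk (WW s c s)) (rk_empty _) (fun _ _ => rk_mono _) (rk_union _) P _
      fun y' hy' => ?_
    obtain ⟨y, hy, h, -⟩ := eval_rename_YY hy'
    obtain ⟨p, hp, hpy⟩ := hcover (pz y) fun f hf => by
      simp only [Submodule.mem_iInf] at hf
      exact mem_mI.1 (hf _ ⟨y, hy, rfl⟩)
    exact ⟨p, hp, hy', eval_ext.2 (h ▸ hpy)⟩
  have h3 : ∀ p ∈ P, rk (WW s c s) (ZV (YY s c Y) (ext (Fin d) p)) ≤
      C₁ * ((κ + 1) * s) ^ d * Hf p (κ * s) := by
    intro p hp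
    refine (h1 _ s le_rfl (ext_adm ((hP p hp).mono hts))).trans ?_
    rw [mul_assoc]
    refine Nat.mul_le_mul_left _ ((Hf_ext p _).trans ?_)
    rw [mul_comm, Fintype.card_fin]
    refine Nat.mul_le_mul_right _ ((choose_hi _ _).trans (Nat.pow_le_pow_left ?_ _))
    nlinarith
  have h4 : s ^ d * frk (pol s up) Y ≤ s ^ d * (C₁ * (κ + 1) ^ d * ∑ p ∈ P, Hf p (κ * s)) := by
    refine (rk_WW hs hc s).trans (h2.trans ((Finset.sum_le_sum h3).trans (le_of_eq ?_)))
    rw [← Finset.mul_sum, mul_pow]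
    ring
  have h5 := Nat.le_of_mul_le_mul_left h4 (by positivity)
  calc frk (pol s up) Y * t ^ (d - 1)
      ≤ (C₁ * (κ + 1) ^ d * ∑ p ∈ P, Hf p (κ * s)) * t ^ (d - 1) := Nat.mul_le_mul_right _ h5
    _ = C₁ * (κ + 1) ^ d * (t ^ (d - 1) * ∑ p ∈ P, Hf p (κ * s)) := by ring
    _ ≤ C₁ * (κ + 1) ^ d * (C₂ * s ^ (d - 1) * frk (pol t pz) Y) := Nat.mul_le_mul_left _ hbud
    _ = _ := by ring

end Crest.Agent.R65.KB
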