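import Crest.Agent.R65.KB.Defs
import Crest.Agent.R65.Mn.Pol

/-! Row 65, key lemma, weights: grids of roots. -/

set_option autoImplicit false

namespace Crest.Agent.R65.KB

open MvPolynomial Crest.Agent.R65.Mn Crest.Agent.R65.CA

theorem exists_roots {N : ℕ} (hN : 1 ≤ N) {a : ℂ} (ha : a ≠ 0) :
    ∃ S : Finset ℂ, S.card = N ∧ ∀ x ∈ S, x ^ N = a := by
  classical
  have hζ := Complex.isPrimitiveRoot_exp N (by omega)
  refine ⟨(Polynomial.nthRoots N a).toFinset, ?_, fun x hx =>
    (Polynomial.mem_nthRoots (by omega)).1 (Multiset.mem_toFinset.1 hx)⟩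
  rw [Multiset.toFinset_card_of_nodup (hζ.nthRoots_nodup ha), hζ.card_nthRoots,
    if_pos (IsAlgClosed.exists_pow_nat_eq a (by omega))]

theorem grid_zero {K : Type} [Field K] {d N : ℕ} (hN : 1 ≤ N) (S : Fin d → Finset K)
    (hS : ∀ j, (S j).card = N)
    (a : (Fin d → Fin N) → K)
    (h : ∀ x : Fin d → K, (∀ j, x j ∈ S j) → ∑ g, a g * ∏ j, x j ^ (g j : ℕ) = 0) :
    ∀ g, a g = 0 := by
  classical
  let e : (Fin d → Fin N) → (Fin d →₀ ℕ) := fun g => Finsupp.equivFunOnFinite.symm fun j => g j
  have he : Function.Injective e := by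
    intro g g' hg
    funext j
    exact Fin.ext (congrFun (Finsupp.equivFunOnFinite.symm.injective hg) j)
  have hP : (∑ g, monomial (e g) (a g) : MvPolynomial (Fin d) K) = 0 := by
    refine eq_zero_of_eval_zero_at_prod_finset _ S (fun j => ?_) fun x hx => ?_
    · rw [hS, degreeOf_lt_iff hN]
      intro m hm
      obtain ⟨g, -, hg⟩ := Finset.mem_biUnion.1 (support_sum hm)
      rw [Finset.mem_singleton.1 (support_monomial_subset hg)]
      exact (g j).2
    · rw [← h x hx, map_sum]
      refine Finset.sum_congr rfl fun g _ => ?_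
      rw [eval_monomial, Finsupp.prod_fintype _ _ fun _ => pow_zero _]
      rfl
  intro g
  have := congrArg (coeff (e g)) hP
  rw [coeff_sum, Finset.sum_eq_single g] at this
  · simpa using this
  · intro g' _ hg'
    rw [coeff_monomial, if_neg fun h => hg' (he h)]
  · simp

theorem rk_WW_aux {d N : ℕ} (hN : 1 ≤ N) {c : Fin d → ℂ} {Y : Finset (Pt d)}
    (hc : ∀ y ∈ Y, ∀ j, y (Sum.inr j) ≠ c j) (s : ℕ) [FiniteDimensional (LL d) (WW N c s)] :
    N ^ d * frk (pol s up) Y ≤ rk (WW N c s) (YY N c Y) := by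
  classical
  obtain ⟨φ, hφ, hli⟩ := exists_li (pol s (up (d := d))) Y
  choose q hq hφq using fun k => mem_pol.1 (hφ k)
  let ψ : (Fin d → Fin N) × Fin (frk (pol s (up (d := d))) Y) → AA d := fun gk =>
    (∏ j, X (Sum.inr j) ^ (gk.1 j : ℕ)) * aeval (xP N c) (q gk.2)
  have hψ : ∀ gk, ψ gk ∈ WW N c s := fun gk =>
    Submodule.subset_span ⟨fun j => gk.1 j, fun j => (gk.1 j).2, q gk.2, hq _, rfl⟩
  have hind : LinearIndependent (LL d) fun gk =>
      (⟨evalOn (YY N c Y) (ψ gk), Submodule.mem_map_of_mem (hψ gk)⟩ :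
        (WW N c s).map (evalOn (YY N c Y))) := by
    refine LinearIndependent.of_comp (Submodule.subtype _) ?_
    rw [Fintype.linearIndependent_iff]
    intro a ha gk
    have key : ∀ y ∈ Y, ∀ g, ∑ k, a (g, k) * φ k y = 0 := by
      intro y hy
      choose S hS hSN using fun j => exists_roots hN (sub_ne_zero.2 (hc y hy j))
      refine grid_zero hN (fun j => (S j).image (algebraMap ℂ (LL d))) (fun j => by
        rw [Finset.card_image_of_injective _ (algebraMap ℂ (LL d)).injective, hS]) _ fun x hx => ?_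
      choose β hβ hβx using fun j => Finset.mem_image.1 (hx j)
      have hb : ∀ j, β j ^ N + c j = y (Sum.inr j) := fun j => by rw [hSN j _ (hβ j)]; ring
      have := congrFun ha ⟨_, y, hy, β, hb, rfl⟩
      rw [Finset.sum_apply, Fintype.sum_prod_type] at this
      rw [← show _ = (0 : LL d) from this]
      refine Finset.sum_congr rfl fun g _ => ?_
      rw [Finset.sum_mul]
      refine Finset.sum_congr rfl fun k _ => ?_
      have e1 : eval (Sum.elim (pz y) fun j => algebraMap ℂ (LL d) (β j))
          (aeval (xP N c) (q k)) = eval (up y) (q k) := by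
        have := comp_aeval_apply (xP N c)
          (aeval (Sum.elim (pz y) fun j => algebraMap ℂ (LL d) (β j)) : AA d →ₐ[LL d] LL d) (q k)
        simp only [aeval_eq_eval, eval_xP hb] at this
        exact this
      simp only [Function.comp_apply, Submodule.subtype_apply, Pi.smul_apply, smul_eq_mul,
        evalOn_apply, ψ, map_mul, map_prod, map_pow, eval_X, Sum.elim_inr, e1, hφq]
      simp only [hβx]
      ring
    exact congrFun (hli (fun k => a (gk.1, k)) fun y hy => key y hy gk.1) gk.2
  have := hind.fintype_card_le_finrank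
  simpa [rk] using this

end Crest.Agent.R65.KB
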