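import Crest.Agent.R65.KB.Defs
import Crest.Agent.R65.CAGrow
import Crest.Agent.R65.CABasic
import Crest.Agent.R65.Mn.Pol
import Crest.Agent.R65.KB.RankAux

/-! Row 65, key lemma, weights: the weighted space of functions. -/

set_option autoImplicit false

namespace Crest.Agent.R65.KB

open MvPolynomial Crest.Agent.R65.Mn Crest.Agent.R65.CA

variable {d : ℕ}

theorem frk_eq_rk {K σ ι : Type} [Field K] (s : ℕ) (pt : ι → σ → K) (Y : Finset ι) :
    frk (pol s pt) Y = rk (restrictTotalDegree σ K s) (pt '' (Y : Set ι)) := by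
  have key : ∀ {V : Type} [AddCommGroup V] [Module K V] (f : MvPolynomial σ K →ₗ[K] V),
      Module.finrank K ((restrictTotalDegree σ K s).map f) = Module.finrank K
        (restrictTotalDegree σ K s ⧸ LinearMap.ker (f.domRestrict (restrictTotalDegree σ K s))) := by
    intro V _ _ f
    rw [← LinearMap.range_domRestrict, (LinearMap.quotKerEquivRange _).finrank_eq]
  change Module.finrank K (((restrictTotalDegree σ K s).map (evs pt)).map
    (LinearMap.funLeft K K ((↑) : Y → ι))) =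
    Module.finrank K ((restrictTotalDegree σ K s).map (evalOn (pt '' (Y : Set ι))))
  rw [← Submodule.map_comp, key, key]
  refine (Submodule.quotEquivOfEq _ _ ?_).finrank_eq
  ext φ
  simp only [LinearMap.mem_ker, LinearMap.domRestrict_apply, LinearMap.comp_apply, funext_iff,
    LinearMap.funLeft_apply, evs_apply, evalOn_apply, Pi.zero_apply]
  constructor
  · rintro h ⟨_, i, hi, rfl⟩
    exact h ⟨i, hi⟩
  · intro h i
    exact h ⟨pt i, i, i.2, rfl⟩

/-- contained in the polynomials of bounded degree -/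
theorem WW_finite (N : ℕ) (c : Fin d → ℂ) (s : ℕ) : FiniteDimensional (LL d) (WW N c s) := by
  have h : WW N c s ≤ ⨆ g : Fin d → Fin N, (restrictTotalDegree (Ix d) (LL d) s).map
      ((LinearMap.mulLeft (LL d) (∏ j, X (Sum.inr j) ^ (g j : ℕ) : AA d)).comp
        (aeval (xP N c) : AA d →ₐ[LL d] AA d).toLinearMap) := by
    refine Submodule.span_le.2 ?_
    rintro _ ⟨g, hg, φ, hφ, rfl⟩
    exact Submodule.mem_iSup_of_mem (fun j => (⟨g j, hg j⟩ : Fin N))
      ⟨φ, (mem_restrictTotalDegree _ _ _).2 hφ, rfl⟩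
  exact Submodule.finiteDimensional_of_le h

theorem exists_shift (Y : Finset (Pt d)) : ∃ c : Fin d → ℂ, ∀ y ∈ Y, ∀ j, y (Sum.inr j) ≠ c j := by
  classical
  have h : ∀ j : Fin d, ∃ a : ℂ, a ∉ Y.image fun y => y (Sum.inr j) := fun j =>
    Infinite.exists_notMem_finset _
  choose c hc using h
  exact ⟨c, fun y hy j e => hc j (Finset.mem_image.2 ⟨y, hy, e⟩)⟩

/-- If `φ_1, …, φ_r` are independent on `Y` then the `β ^ g φ_i` are independent on `YY`: over a fixed
`y` the points `β` form a grid of `N`-th roots of nonzero numbers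
(`MvPolynomial.eq_zero_of_eval_zero_at_prod_finset`). -/
theorem rk_WW {N : ℕ} (hN : 1 ≤ N) {c : Fin d → ℂ} {Y : Finset (Pt d)}
    (hc : ∀ y ∈ Y, ∀ j, y (Sum.inr j) ≠ c j) (s : ℕ) :
    N ^ d * frk (pol s up) Y ≤ rk (WW N c s) (YY N c Y) :=
  have := WW_finite N c s
  rk_WW_aux hN hc s

/-- `β_j ^ N = b_j - c_j`, `Grow.of_pow`, `grow_aeval`, `Grow.span` -/
theorem grow_WW {N : ℕ} (hN : 1 ≤ N) {c : Fin d → ℂ} {p : Ideal (AA d)}
    (h : ∀ j, Grow p (zP d) 1 (bP N c j)) (s : ℕ) :
    (∀ k, Grow p (zP d) 1 (X k)) ∧ ∀ φ ∈ WW N c s, Grow p (zP d) (d + s) φ := by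
  have h1 : ∀ j, Grow p (zP d) 1 (X (Sum.inr j) ^ N) := fun j => by
    have := (h j).add (grow_C 1 (-algebraMap ℂ (LL d) (c j)))
    rwa [bP, map_neg, add_neg_cancel_right] at this
  have h2 : ∀ j g, g ≤ N → Grow p (zP d) 1 (X (Sum.inr j) ^ g) := fun j g hg => by
    refine Grow.of_pow hN ?_
    rw [← pow_mul, mul_comm g N, pow_mul]
    exact ((h1 j).pow' g).mono (Nat.mul_le_mul_left 1 hg)
  have h3 : ∀ k, Grow p (zP d) 1 (xP N c k) := by
    rintro (i | j)
    · have h4 : Grow p (zP d) 1 (∑ j, C (SS d i j) * bP N c j) :=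
        Grow.sum' _ fun j _ => (grow_C 0 (SS d i j)).mul (h j)
      have h5 := (grow_self (p := p) (z := zP d) i).add (h4.smul (-1))
      rw [neg_one_smul, ← sub_eq_add_neg] at h5
      exact h5
    · exact h j
  refine ⟨?_, Grow.span ?_⟩
  · rintro (i | j)
    · exact grow_self (z := zP d) i
    · simpa using h2 j 1 hN
  · rintro _ ⟨g, hg, φ, hφ, rfl⟩
    have h4 := (Grow.prod' Finset.univ fun j => h2 j (g j) (hg j).le).mul (grow_aeval h3 φ hφ)
    simpa using h4

end Crest.Agent.R65.KB
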